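import Vale.Agent.P127.U.Ent

/-!
# P122 / C-BK : entropies along an exact tree of nodes, systems (helper518)

`N c` node of level `c ≤ K`, `Y c` its cap, `T c` its time block, `sg c` the piece of `N c`.

* `Tre` : the functional relations of the tree; `Cts` : the counts (upper bounds) and the lower bound of the total
  entropy (uniform law of flags).
* `Cts.h_flag` : `h(x, Y c) = H 0 + ∑_(k<c) J k`;  `Cts.hc_Y_x`, `Cts.hc_Y_N` : `h(Y (c+1) | x, Y c) = J c = h(Y (c+1) | N c)`.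
* `Cts.hc_x_N` : `h(x | N c) = H 0 + M c - H c`.
* `Cts.markov` : `I(x, Y c ; Y d | N c) = 0`, `Cts.mi_N` : `I(x ; N d | N c) = 0`.
* `Cts.hc_NN` : `h(N c | N d) = (M c - H c) - (M d - H d)`, and its cut by the time block.
* `Cts.E_mono` : `E c = 4 c / K - (H 0 + M c - H c) - 2 ∑_(k<c) th k` is nondecreasing, `E 0 = 0`.
* `Cts.E_sub` : `E d - E c = D(c, d) + e(c, d)`, `D, e ≥ 0`.
-/

set_option autoImplicit false

namespace Vale.Agent.P122.H518

open Filter Topology Finset Vale.Agent.P127 Vale.Agent.P127.U Vale.Agent.P127.U.Sys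

variable {S : Sys} {β κ τ σ α γ δ : Type*}

/-! ### functions on the support, eventually -/

theorem frf (X : S.RV α) : Sys.Fn X X := Eventually.of_forall fun _ _ _ _ _ e => e

theorem ftr {X : S.RV α} {Y : S.RV γ} {Z : S.RV δ} (h : Sys.Fn X Y) (h' : Sys.Fn Y Z) :
    Sys.Fn X Z := by
  filter_upwards [h, h'] with i h1 h2 ω ω' p p' e
  exact h1 ω ω' p p' (h2 ω ω' p p' e)

theorem fpr {X : S.RV α} {Y : S.RV γ} {Z : S.RV δ} (h : Sys.Fn X Z) (h' : Sys.Fn Y Z) :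
    Sys.Fn (Sys.pr X Y) Z := by
  filter_upwards [h, h'] with i h1 h2 ω ω' p p' e
  exact Prod.ext (h1 ω ω' p p' e) (h2 ω ω' p p' e)

theorem ffst (X : S.RV α) (Y : S.RV γ) : Sys.Fn X (Sys.pr X Y) :=
  Eventually.of_forall fun _ _ _ _ _ e => congrArg Prod.fst e

theorem fone (Z : S.RV α) : Sys.Fn (one (S := S)) Z := Eventually.of_forall fun _ _ _ _ _ _ => rfl

theorem fsnd (X : S.RV α) (Y : S.RV γ) : Sys.Fn Y (Sys.pr X Y) :=
  Eventually.of_forall fun _ _ _ _ _ e => congrArg Prod.snd e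

/-- relations of an exact tree -/
structure Tre (S : Sys) (K : ℕ) (N : ℕ → S.RV β) (Y : ℕ → S.RV κ) (T : ℕ → S.RV τ)
    (sg : ℕ → S.RV σ) : Prop where
  tN : ∀ c, c ≤ K → Sys.Tame (N c)
  YN : ∀ c, c ≤ K → Sys.Fn (Y c) (N c)
  TN : ∀ c, c ≤ K → Sys.Fn (T c) (N c)
  gN : ∀ c, c ≤ K → Sys.Fn (sg c) (N c)
  NY : ∀ c, c < K → Sys.Fn (N (c + 1)) (Sys.pr (sg c) (Y (c + 1)))
  YY : ∀ c, c < K → Sys.Fn (Y c) (Y (c + 1))
  TT : ∀ c, c < K → Sys.Fn (T (c + 1)) (T c)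
  gT : ∀ c, c < K → Sys.Fn (sg c) (Sys.pr (T c) (N (c + 1)))

variable {K : ℕ} {N : ℕ → S.RV β} {Y : ℕ → S.RV κ} {T : ℕ → S.RV τ} {sg : ℕ → S.RV σ}

namespace Tre

theorem tY (h : Tre S K N Y T sg) {c : ℕ} (hc : c ≤ K) : Sys.Tame (Y c) := (h.tN c hc).mono (h.YN c hc)

theorem tT (h : Tre S K N Y T sg) {c : ℕ} (hc : c ≤ K) : Sys.Tame (T c) := (h.tN c hc).mono (h.TN c hc)

theorem tg (h : Tre S K N Y T sg) {c : ℕ} (hc : c ≤ K) : Sys.Tame (sg c) := (h.tN c hc).mono (h.gN c hc)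

theorem YY' (h : Tre S K N Y T sg) {c d : ℕ} (hcd : c ≤ d) (hd : d ≤ K) : Sys.Fn (Y c) (Y d) := by
  induction d, hcd using Nat.le_induction with
  | base => exact frf _
  | succ d _ ih => exact ftr (ih (by omega)) (h.YY d (by omega))

theorem TT' (h : Tre S K N Y T sg) {c d : ℕ} (hcd : c ≤ d) (hd : d ≤ K) : Sys.Fn (T d) (T c) := by
  induction d, hcd using Nat.le_induction with
  | base => exact frf _
  | succ d _ ih => exact ftr (h.TT d (by omega)) (ih (by omega))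

/-- a node above is a function of a node below and of its own cap -/
theorem NNY (h : Tre S K N Y T sg) {c d : ℕ} (hcd : c ≤ d) (hd : d ≤ K) :
    Sys.Fn (N d) (Sys.pr (N c) (Y d)) := by
  induction d, hcd using Nat.le_induction with
  | base => exact ffst _ _
  | succ d hcd ih =>
    refine ftr (h.NY d (by omega)) (fpr ?_ (fsnd _ _))
    refine ftr (h.gN d (by omega)) (ftr (ih (by omega)) (fpr (ffst _ _) ?_))
    exact ftr (h.YY d (by omega)) (fsnd _ _)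

/-- a node is a function of the point and of the cap of a node above -/
theorem NxY (h : Tre S K N Y T sg) {c d : ℕ} (hcd : c ≤ d) (hd : d ≤ K) :
    Sys.Fn (N c) (Sys.pr (N 0) (Y d)) :=
  ftr (h.NNY (Nat.zero_le c) (hcd.trans hd))
    (fpr (ffst _ _) (ftr (h.YY' hcd hd) (fsnd _ _)))

/-- a node is a function of the point and of a node above -/
theorem NxN (h : Tre S K N Y T sg) {c d : ℕ} (hcd : c ≤ d) (hd : d ≤ K) :
    Sys.Fn (N c) (Sys.pr (N 0) (N d)) :=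
  ftr (h.NxY hcd hd) (fpr (ffst _ _) (ftr (h.YN d hd) (fsnd _ _)))

end Tre

/-- counts and the entropy of the flags -/
structure Cts (S : Sys) (K : ℕ) (N : ℕ → S.RV β) (Y : ℕ → S.RV κ) (T : ℕ → S.RV τ)
    (sg : ℕ → S.RV σ) (H J th : ℕ → ℝ) : Prop where
  tre : Tre S K N Y T sg
  H0 : S.h (N 0) ≤ H 0
  hJ : ∀ c, c < K → S.hc (Y (c + 1)) (N c) ≤ J c
  hU : H 0 + ∑ c ∈ range K, J c ≤ S.h (Sys.pr (N 0) (Y K))
  hN : ∀ c, c ≤ K → S.h (N c) = H c
  hB : ∀ c, c < K → S.hc (N c) (sg c) ≤ 2 / K - 2 * th c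
  hT : ∀ c, c < K → S.hc (T c) (T (c + 1)) ≤ 2 / K

namespace Cts

variable {H J th : ℕ → ℝ}

theorem step (h : Tre S K N Y T sg) {c : ℕ} (hc : c < K) :
    S.h (Sys.pr (N 0) (Y (c + 1))) =
      S.h (Sys.pr (N 0) (Y c)) + S.hc (Y (c + 1)) (Sys.pr (N 0) (Y c)) := by
  have t1 : Sys.Tame (Sys.pr (N 0) (Y c)) := (h.tN 0 (Nat.zero_le _)).pr (h.tY hc.le)
  have t2 := h.tY (c := c + 1) hc
  have h1 := hc_pair t1 t2 (one (S := S))
  have h2 : S.h (Sys.pr (N 0) (Y (c + 1))) = S.hc (Sys.pr (Sys.pr (N 0) (Y c)) (Y (c + 1))) (one (S := S)) := by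
    unfold Sys.h
    refine hc_congr ?_ ?_ (frf _) (frf _)
    · refine fpr ?_ ?_
      · exact ftr (ffst _ _) (ftr (ffst _ _) (ffst _ _))
      · exact ftr (fsnd _ _) (ffst _ _)
    · refine fpr (fpr (ftr (ffst _ _) (ffst _ _)) ?_) (ftr (fsnd _ _) (ffst _ _))
      exact ftr (h.YY c hc) (ftr (fsnd _ _) (ffst _ _))
  have h3 : S.hc (Y (c + 1)) (Sys.pr (Sys.pr (N 0) (Y c)) (one (S := S))) =
      S.hc (Y (c + 1)) (Sys.pr (N 0) (Y c)) :=
    hc_congr (ffst _ _) (ffst _ _) (fpr (frf _) (fone _)) (ffst _ _)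
  rw [h2, h1, h3]
  rfl

theorem hY_le (h : Cts S K N Y T sg H J th) {c : ℕ} (hc : c < K) :
    S.hc (Y (c + 1)) (Sys.pr (N 0) (Y c)) ≤ S.hc (Y (c + 1)) (N c) :=
  hc_mono_right (h.tre.tY hc) (h.tre.NxY le_rfl hc.le)

theorem h0 (h : Cts S K N Y T sg H J th) : S.h (Sys.pr (N 0) (Y 0)) = S.h (N 0) := by
  unfold Sys.h
  refine hc_congr ?_ ?_ (frf _) (frf _)
  · exact ftr (fpr (frf _) (h.tre.YN 0 (Nat.zero_le _))) (ffst _ _)
  · exact ftr (ffst _ _) (ffst _ _)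

theorem flag_le (h : Cts S K N Y T sg H J th) {c : ℕ} (hc : c ≤ K) :
    S.h (Sys.pr (N 0) (Y c)) ≤ H 0 + ∑ k ∈ range c, J k := by
  induction c with
  | zero => rw [h.h0]; simpa using h.H0
  | succ c ih =>
    rw [step h.tre hc, sum_range_succ]
    have h1 := ih (by omega)
    have h2 := h.hY_le hc
    have h3 := h.hJ c hc
    linarith

theorem flag_ge (h : Cts S K N Y T sg H J th) {c : ℕ} (hc : c ≤ K) :
    H 0 + ∑ k ∈ range c, J k ≤ S.h (Sys.pr (N 0) (Y c)) := by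
  induction hd : K - c generalizing c with
  | zero =>
    have : c = K := by omega
    subst this
    exact h.hU
  | succ d ih =>
    have hc' : c < K := by omega
    have h1 := ih (c := c + 1) (by omega) (by omega)
    rw [step h.tre hc', sum_range_succ] at h1
    have h2 := h.hY_le hc'
    have h3 := h.hJ c hc'
    linarith

/-- entropy of the flags -/
theorem h_flag (h : Cts S K N Y T sg H J th) {c : ℕ} (hc : c ≤ K) :
    S.h (Sys.pr (N 0) (Y c)) = H 0 + ∑ k ∈ range c, J k := le_antisymm (h.flag_le hc) (h.flag_ge hc)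

theorem hc_Y_x (h : Cts S K N Y T sg H J th) {c : ℕ} (hc : c < K) :
    S.hc (Y (c + 1)) (Sys.pr (N 0) (Y c)) = J c := by
  have h1 := step h.tre hc
  rw [h.h_flag (c := c + 1) hc, h.h_flag hc.le, sum_range_succ] at h1
  linarith

theorem hc_Y_N (h : Cts S K N Y T sg H J th) {c : ℕ} (hc : c < K) : S.hc (Y (c + 1)) (N c) = J c := by
  have h1 := h.hY_le hc
  have h2 := h.hJ c hc
  have h3 := h.hc_Y_x hc
  linarith

theorem J_nonneg (h : Cts S K N Y T sg H J th) {c : ℕ} (hc : c < K) : 0 ≤ J c := by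
  rw [← h.hc_Y_N hc]
  exact hc_nonneg (h.tre.tY hc) _

/-- `h(x, N c) = h(x, Y c)` -/
theorem h_xN (h : Cts S K N Y T sg H J th) {c : ℕ} (hc : c ≤ K) :
    S.h (Sys.pr (N 0) (N c)) = H 0 + ∑ k ∈ range c, J k := by
  rw [← h.h_flag hc]
  unfold Sys.h
  refine hc_congr ?_ ?_ (frf _) (frf _)
  · exact ftr (fpr (ffst _ _) (h.tre.NxY le_rfl hc)) (ffst _ _)
  · exact ftr (fpr (ffst _ _) (ftr (h.tre.YN c hc) (fsnd _ _))) (ffst _ _)

theorem h_pair_eq {X : S.RV α} {Z : S.RV γ} (tX : Sys.Tame X) (tZ : Sys.Tame Z) :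
    S.h (Sys.pr X Z) = S.h Z + S.hc X Z := by
  have h1 := hc_pair tZ tX (one (S := S))
  have h2 : S.h (Sys.pr X Z) = S.hc (Sys.pr Z X) (one (S := S)) := by
    unfold Sys.h
    refine hc_congr ?_ ?_ (frf _) (frf _)
    · exact ftr (fpr (fsnd _ _) (ffst _ _)) (ffst _ _)
    · exact ftr (fpr (fsnd _ _) (ffst _ _)) (ffst _ _)
  have h3 : S.hc X (Sys.pr Z (one (S := S))) = S.hc X Z :=
    hc_congr (ffst _ _) (ffst _ _) (fpr (frf _) (fone _)) (ffst _ _)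
  rw [h2, h1, h3]
  rfl

/-- **`h(x | N c) = H 0 + M c - H c`** -/
theorem hc_x_N (h : Cts S K N Y T sg H J th) {c : ℕ} (hc : c ≤ K) :
    S.hc (N 0) (N c) = H 0 + ∑ k ∈ range c, J k - H c := by
  have h1 := h.h_xN hc
  rw [h_pair_eq (h.tre.tN 0 (Nat.zero_le _)) (h.tre.tN c hc), h.hN c hc] at h1
  linarith

/-- `h(Y d | N c) ≤ ∑ J` -/
theorem hc_Yd_N_le (h : Cts S K N Y T sg H J th) {c d : ℕ} (hcd : c ≤ d) (hd : d ≤ K) :
    S.hc (Y d) (N c) ≤ ∑ k ∈ Ico c d, J k := by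
  induction d, hcd using Nat.le_induction with
  | base =>
    rw [Ico_self, sum_empty]
    exact (hc_fn (h.tre.YN c hd)).le
  | succ d hcd ih =>
    rw [sum_Ico_succ_top hcd]
    have t1 := h.tre.tY (c := d + 1) hd
    have t2 := h.tre.tY (c := d) (by omega)
    have h1 := hc_le_add t1 t2 (N c)
    have h2 : S.hc (Y (d + 1)) (Sys.pr (Y d) (N c)) ≤ S.hc (Y (d + 1)) (N d) :=
      hc_mono_right t1 (ftr (h.tre.NNY hcd (by omega)) (fpr (fsnd _ _) (ffst _ _)))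
    have h3 := h.hJ d (by omega)
    have h4 := ih (by omega)
    linarith

/-- **Markov property** : `I(x, Y c ; Y d | N c) = 0` -/
theorem markov (h : Cts S K N Y T sg H J th) {c d : ℕ} (hcd : c ≤ d) (hd : d ≤ K) :
    S.hc (Y d) (Sys.pr (N 0) (N c)) = ∑ k ∈ Ico c d, J k ∧ S.hc (Y d) (N c) = ∑ k ∈ Ico c d, J k := by
  have hc := hcd.trans hd
  have t0 := h.tre.tN 0 (Nat.zero_le _)
  have tc := h.tre.tN c hc
  have td := h.tre.tY hd
  have h1 : S.hc (Y d) (Sys.pr (N 0) (N c)) = ∑ k ∈ Ico c d, J k := by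
    have h2 := h_pair_eq td (t0.pr tc)
    have h3 : S.h (Sys.pr (Y d) (Sys.pr (N 0) (N c))) = S.h (Sys.pr (N 0) (Y d)) := by
      unfold Sys.h
      refine hc_congr ?_ ?_ (frf _) (frf _)
      · exact ftr (fpr (fsnd _ _) (fpr (ffst _ _) (h.tre.NxY hcd hd))) (ffst _ _)
      · exact ftr (fpr (ftr (ffst _ _) (fsnd _ _)) (ffst _ _)) (ffst _ _)
    rw [h3, h.h_flag hd, h.h_xN hc] at h2
    have h4 := sum_range_add_sum_Ico J hcd
    linarith
  refine ⟨h1, le_antisymm (h.hc_Yd_N_le hcd hd) ?_⟩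
  rw [← h1]
  exact hc_mono_right td (fsnd _ _)

/-- `I(x ; N d | N c) = 0` -/
theorem mi_N (h : Cts S K N Y T sg H J th) {c d : ℕ} (hcd : c ≤ d) (hd : d ≤ K) :
    S.hc (N 0) (Sys.pr (N d) (N c)) = S.hc (N 0) (N c) := by
  have hc := hcd.trans hd
  have t0 := h.tre.tN 0 (Nat.zero_le _)
  have tc := h.tre.tN c hc
  have td := h.tre.tN d hd
  have tY := h.tre.tY hd
  -- `(N d, N c)` and `(Y d, N c)` are equivalent
  have h1 : S.hc (N 0) (Sys.pr (N d) (N c)) = S.hc (N 0) (Sys.pr (Y d) (N c)) :=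
    hc_congr (ffst _ _) (ffst _ _)
      (fpr (ftr (h.tre.NNY hcd hd) (fpr (fsnd _ _) (ffst _ _))) (fsnd _ _))
      (fpr (ftr (h.tre.YN d hd) (ffst _ _)) (fsnd _ _))
  have h2 := mi_comm t0 tY (N c)
  unfold Sys.mi at h2
  obtain ⟨h3, h4⟩ := h.markov hcd hd
  rw [h3, h4] at h2
  rw [h1]
  linarith

/-- **`h(N c | N d) = (M c - H c) - (M d - H d)`** with opposite sign -/
theorem hc_NN (h : Cts S K N Y T sg H J th) {c d : ℕ} (hcd : c ≤ d) (hd : d ≤ K) :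
    S.hc (N c) (N d) = (H 0 + ∑ k ∈ range d, J k - H d) - (H 0 + ∑ k ∈ range c, J k - H c) := by
  have hc := hcd.trans hd
  have t0 := h.tre.tN 0 (Nat.zero_le _)
  have tc := h.tre.tN c hc
  have h1 := hc_pair tc t0 (N d)
  have h2 : S.hc (Sys.pr (N c) (N 0)) (N d) = S.hc (N 0) (N d) := by
    refine hc_congr ?_ ?_ (frf _) (frf _)
    · exact fpr (h.tre.NxN hcd hd) (ffst _ _)
    · exact ftr (fsnd _ _) (ffst _ _)
  have h3 : S.hc (N 0) (Sys.pr (N c) (N d)) = S.hc (N 0) (Sys.pr (N d) (N c)) :=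
    hc_congr (ffst _ _) (ffst _ _) (fpr (fsnd _ _) (ffst _ _))
      (fpr (fsnd _ _) (ffst _ _))
  rw [h2, h3, h.mi_N hcd hd, h.hc_x_N hc, h.hc_x_N hd] at h1
  linarith

/-- cut of `h(N c | N d)` by the time block -/
theorem hc_NN_cut (h : Cts S K N Y T sg H J th) {c d : ℕ} (hcd : c ≤ d) (hd : d ≤ K) :
    S.hc (N c) (N d) = S.hc (T c) (N d) + S.hc (N c) (Sys.pr (T c) (N d)) := by
  have hc := hcd.trans hd
  rw [← hc_pair (h.tre.tT hc) (h.tre.tN c hc) (N d)]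
  refine hc_congr ?_ ?_ (frf _) (frf _)
  · exact ftr (fsnd _ _) (ffst _ _)
  · exact fpr (ftr (h.tre.TN c hc) (ffst _ _)) (ffst _ _)

/-- number of time blocks -/
theorem hT_le (h : Cts S K N Y T sg H J th) {c d : ℕ} (hcd : c ≤ d) (hd : d ≤ K) :
    S.hc (T c) (T d) ≤ 2 * ((d : ℝ) - c) / K := by
  induction d, hcd using Nat.le_induction with
  | base =>
    rw [hc_fn (frf _)]
    simp
  | succ d hcd ih =>
    have t1 := h.tre.tT (c := c) (by omega)
    have t2 := h.tre.tT (c := d) (by omega)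
    have h1 := hc_le_add t1 t2 (T (d + 1))
    have h2 : S.hc (T c) (Sys.pr (T d) (T (d + 1))) ≤ S.hc (T c) (T d) :=
      hc_mono_right t1 (ffst _ _)
    have h3 := h.hT d (by omega)
    have h4 := ih (by omega)
    have h5 : 2 * (((d + 1 : ℕ) : ℝ) - c) / K = 2 * ((d : ℝ) - c) / K + 2 / K := by
      push_cast
      ring
    linarith

/-- `D(c, d)` -/
noncomputable def Dn (S : Sys) (K : ℕ) (N : ℕ → S.RV β) (T : ℕ → S.RV τ) (c d : ℕ) : ℝ :=
  2 * ((d : ℝ) - c) / K - S.hc (T c) (N d)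

/-- `C(c, d)` -/
noncomputable def Cn (S : Sys) (K : ℕ) (N : ℕ → S.RV β) (T : ℕ → S.RV τ) (c d : ℕ) : ℝ :=
  2 * ((d : ℝ) - c) / K - S.hc (N c) (Sys.pr (T c) (N d))

/-- `E(c)` -/
noncomputable def En (K : ℕ) (H J th : ℕ → ℝ) (c : ℕ) : ℝ :=
  4 * (c : ℝ) / K - (H 0 + ∑ k ∈ range c, J k - H c) - 2 * ∑ k ∈ range c, th k

theorem Dn_nonneg (h : Cts S K N Y T sg H J th) {c d : ℕ} (hcd : c ≤ d) (hd : d ≤ K) :
    0 ≤ Dn S K N T c d := by
  have h1 := h.hT_le hcd hd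
  have h2 : S.hc (T c) (N d) ≤ S.hc (T c) (T d) :=
    hc_mono_right (h.tre.tT (hcd.trans hd)) (h.tre.TN d hd)
  unfold Dn
  linarith

theorem Dn_le (h : Cts S K N Y T sg H J th) {c d : ℕ} (hcd : c ≤ d) (hd : d ≤ K) :
    Dn S K N T c d ≤ 2 * ((d : ℝ) - c) / K := by
  have := hc_nonneg (h.tre.tT (hcd.trans hd)) (N d)
  unfold Dn
  linarith

/-- superadditivity of `C` -/
theorem Cn_super (h : Cts S K N Y T sg H J th) {c k d : ℕ} (hck : c ≤ k) (hkd : k ≤ d) (hd : d ≤ K) :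
    Cn S K N T c k + Cn S K N T k d ≤ Cn S K N T c d := by
  have tc := h.tre.tN c (by omega)
  have tk := h.tre.tN k (by omega)
  have h1 := hc_le_add tc tk (Sys.pr (T c) (N d))
  have h2 : S.hc (N k) (Sys.pr (T c) (N d)) ≤ S.hc (N k) (Sys.pr (T k) (N d)) :=
    hc_mono_right tk (fpr (ftr (h.tre.TT' hck (by omega)) (ffst _ _)) (fsnd _ _))
  have h3 : S.hc (N c) (Sys.pr (N k) (Sys.pr (T c) (N d))) ≤ S.hc (N c) (Sys.pr (T c) (N k)) :=
    hc_mono_right tc (fpr (ftr (ffst _ _) (fsnd _ _)) (ffst _ _))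
  unfold Cn
  have h4 : 2 * ((d : ℝ) - c) / K = 2 * ((k : ℝ) - c) / K + 2 * ((d : ℝ) - k) / K := by ring
  rw [h4]
  linarith

theorem Cn_ge (h : Cts S K N Y T sg H J th) {c d : ℕ} (hcd : c ≤ d) (hd : d ≤ K) :
    2 * ∑ k ∈ Ico c d, th k ≤ Cn S K N T c d := by
  induction d, hcd using Nat.le_induction with
  | base =>
    rw [Ico_self, sum_empty]
    have : S.hc (N c) (Sys.pr (T c) (N c)) = 0 := hc_fn (fsnd _ _)
    unfold Cn
    rw [this]
    simp
  | succ d hcd ih =>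
    rw [sum_Ico_succ_top hcd]
    have h1 := ih (by omega)
    have h2 := h.Cn_super hcd (Nat.le_succ d) hd
    have h3 : 2 * th d ≤ Cn S K N T d (d + 1) := by
      have h4 := h.hB d (by omega)
      have h5 : S.hc (N d) (Sys.pr (T d) (N (d + 1))) ≤ S.hc (N d) (sg d) :=
        hc_mono_right (h.tre.tN d (by omega)) (h.tre.gT d (by omega))
      unfold Cn
      push_cast
      have h6 : 2 * ((d : ℝ) + 1 - d) / K = 2 / K := by ring
      rw [h6]
      linarith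
    linarith

/-- **`E(d) - E(c) = D(c, d) + e(c, d)`**, `e(c, d) = C(c, d) - 2 ∑ th` -/
theorem En_sub (h : Cts S K N Y T sg H J th) {c d : ℕ} (hcd : c ≤ d) (hd : d ≤ K) :
    En K H J th d - En K H J th c =
      Dn S K N T c d + (Cn S K N T c d - 2 * ∑ k ∈ Ico c d, th k) := by
  have h1 := h.hc_NN hcd hd
  have h2 := h.hc_NN_cut hcd hd
  have h3 := sum_range_add_sum_Ico th hcd
  unfold En Dn Cn
  have h4 : 4 * (d : ℝ) / K = 4 * (c : ℝ) / K + 2 * (2 * ((d : ℝ) - c) / K) := by ring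
  rw [h4]
  linarith

/-- **E2** : `E` is nondecreasing -/
theorem En_mono (h : Cts S K N Y T sg H J th) {c d : ℕ} (hcd : c ≤ d) (hd : d ≤ K) :
    En K H J th c ≤ En K H J th d := by
  have h1 := h.En_sub hcd hd
  have h2 := h.Dn_nonneg hcd hd
  have h3 := h.Cn_ge hcd hd
  linarith

theorem En_zero (K : ℕ) (H J th : ℕ → ℝ) : En K H J th 0 = 0 := by
  unfold En
  simp

end Cts

end Vale.Agent.P122.H518
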