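import Vale.Agent.P122.H265.E7

/-!
# P122 / E6 = (A) : the step with a fat box, from E4 and E5 (helper518)

* `info_le` : `h(X) - h(X | Y) ≤ h(Y)`.
* `diagA` : for `c ≤ j ≤ 2 c`, `j / K ≤ nα c` : `nV j ≤ nV c + 3 D c j + 1 / K`.
* `D_shift` : `D c j ≤ D i j + 2 (i - c) / K` for `c ≤ i ≤ j`;  `H_back` : `H c ≤ H i + 4 (i - c) / K`.
* `e6_of : E4 → E5 C → E6 (2 C + 14)`.
-/

set_option autoImplicit false

namespace Vale.Agent.P122.H518

open Filter Topology Finset Vale.Agent.P127 Vale.Agent.P127.Stk Vale.Agent.P127.U Vale.Agent.P127.U.Sys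
  Vale.Agent.P127.U.Fi Vale.Agent.P122.C2 Vale.Agent.P122.E Vale.Agent.P122.H265

section gen

variable {S : Sys} {α β γ : Type*}

/-- the information is at most the entropy -/
theorem info_le {X : S.RV α} {Y : S.RV β} (tX : Tame X) (tY : Tame Y) :
    S.hc X (one (S := S)) - S.hc X Y ≤ S.hc Y (one (S := S)) := by
  have h1 := hc_pair tX tY (one (S := S))
  have h2 := hc_pair tY tX (one (S := S))
  have h3 : S.hc (Sys.pr X Y) (one (S := S)) = S.hc (Sys.pr Y X) (one (S := S)) :=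
    hc_congr (Eventually.of_forall fun _ _ _ _ _ e => by
        simp only [pr_apply, Prod.mk.injEq] at e ⊢
        exact ⟨e.1.2, e.1.1⟩)
      (Eventually.of_forall fun _ _ _ _ _ e => by
        simp only [pr_apply, Prod.mk.injEq] at e ⊢
        exact ⟨e.1.2, e.1.1⟩)
      (frf _) (frf _)
  have h4 : S.hc Y (Sys.pr X (one (S := S))) = S.hc Y X :=
    hc_congr (ffst _ _) (ffst _ _) (fpr (frf _) (fone _)) (ffst _ _)
  have h5 : S.hc X (Sys.pr Y (one (S := S))) = S.hc X Y :=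
    hc_congr (ffst _ _) (ffst _ _) (fpr (frf _) (fone _)) (ffst _ _)
  have h6 := hc_nonneg tY X
  rw [h4] at h1
  rw [h5] at h2
  linarith

/-- a variable with zero entropy given `Z` has at most the entropy of `Z` -/
theorem h_le_of_zero {X : S.RV α} {Z : S.RV β} (tX : Tame X) (tZ : Tame Z) (h : S.hc X Z = 0) :
    S.hc X (one (S := S)) ≤ S.hc Z (one (S := S)) := by
  have h1 := info_le tX tZ
  linarith

/-- the limit of a minimum -/
theorem ulim_min {a b : ℕ → ℝ} (ha : UB a) (hb : UB b) (h : ulim a ≤ ulim b) :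
    ulim (fun i => min (a i) (b i)) = ulim a := by
  have h1 := ha.tendsto.min hb.tendsto
  rw [min_eq_left h] at h1
  exact ulim_eq h1

end gen

section flg

variable {K : ℕ} {F : Flg K} {J θ H e : ℕ → ℝ} {W : ℕ → F.S.BX} {kk jj : ℕ → ℕ → ℕ}

/-- the optimal box contains the tube -/
theorem subA_W (R : RegA F J θ H e W kk jj) {c : ℕ} (hc : c ≤ K) :
    SubA (tubes (F.m c) (F.ln c)) (W c) := by
  refine ⟨1, ?_⟩
  filter_upwards [R.Wok c hc] with i hi ω hω
  obtain ⟨h1, h2, h3, h4, h5, h6⟩ := hi ω hω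
  have h7 : (W c i).j ω ≤ c * F.n i := by
    rw [h4]
    exact h6
  have h8 : (W c i).k ω ≤ (W c i).j ω := by
    rw [h3, h4]
    exact h5
  refine ⟨h1, h2, h8, h8.trans h7, h7, ?_⟩
  show |Real.sin _| * (1 / 2 : ℝ) ^ (c * F.n i) ≤ 1 * (1 / 2 : ℝ) ^ (W c i).j ω
  have h9 : (1 / 2 : ℝ) ^ (c * F.n i) ≤ (1 / 2 : ℝ) ^ (W c i).j ω :=
    pow_le_pow_of_le_one (by norm_num) (by norm_num) h7
  exact mul_le_mul (Real.abs_sin_le_one _) h9 (by positivity) zero_le_one

/-- bounds of the shape -/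
theorem kj_ev (R : RegA F J θ H e W kk jj) {c : ℕ} (hc : c ≤ K) :
    ∀ᶠ i in (uf : Filter ℕ), kk c i ≤ jj c i ∧ jj c i ≤ c * F.n i := by
  filter_upwards [R.Wok c hc] with i hi
  obtain ⟨ω, hω⟩ := law_pos (F.S.P i)
  exact (hi ω hω).2.2.2.2

theorem bd_jj (hK : 1 ≤ K) (R : RegA F J θ H e W kk jj) {c : ℕ} (hc : c ≤ K) :
    ∃ r : ℝ, ∀ᶠ i in (uf : Filter ℕ), (jj c i : ℝ) ≤ r * F.S.L i := by
  obtain ⟨r, hr⟩ := bd_m F hK c
  refine ⟨r, ?_⟩
  filter_upwards [hr, kj_ev R hc] with i h1 h2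
  refine le_trans ?_ h1
  exact_mod_cast h2.2

theorem bd_kk (hK : 1 ≤ K) (R : RegA F J θ H e W kk jj) {c : ℕ} (hc : c ≤ K) :
    ∃ r : ℝ, ∀ᶠ i in (uf : Filter ℕ), (kk c i : ℝ) ≤ r * F.S.L i := by
  obtain ⟨r, hr⟩ := bd_jj hK R hc
  refine ⟨r, ?_⟩
  filter_upwards [hr, kj_ev R hc] with i h1 h2
  refine le_trans ?_ h1
  exact_mod_cast h2.1

theorem nu_kk_le (hK : 1 ≤ K) (R : RegA F J θ H e W kk jj) {c : ℕ} (hc : c ≤ K) :
    F.S.nu (kk c) ≤ F.S.nu (jj c) := by
  refine ulim_le (ub_nu (bd_kk hK R hc)) (ub_nu (bd_jj hK R hc)) ?_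
  filter_upwards [kj_ev R hc] with i h2
  refine div_le_div_of_nonneg_right ?_ (Nat.cast_nonneg _)
  exact_mod_cast h2.1

/-- the size of the fat box, if the box is already fat up to `o(L)` -/
theorem av_fat_W (hK : 1 ≤ K) (R : RegA F J θ H e W kk jj) {c q : ℕ} (hc : c ≤ K)
    (hq : F.S.nu (jj c) ≤ (q : ℝ) / K) :
    F.S.av (BX.sz (fat (F.m q) (W c))) = F.S.nu (kk c) + F.S.nu (jj c) := by
  have u1 := ub_nu (bd_kk hK R hc)
  have u2 := ub_nu (bd_jj hK R hc)
  have u3 := ub_nu (bd_m F hK q)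
  have n3 : F.S.nu (F.m q) = (q : ℝ) / K := nu_m F hK q
  have e1 : ulim (fun i => min ((kk c i : ℝ) / F.S.L i) ((F.m q i : ℝ) / F.S.L i)) = F.S.nu (kk c) := by
    refine ulim_min u1 u3 ?_
    have : F.S.nu (kk c) ≤ F.S.nu (F.m q) := by
      rw [n3]
      exact (nu_kk_le hK R hc).trans hq
    exact this
  have e2 : ulim (fun i => min ((jj c i : ℝ) / F.S.L i) ((F.m q i : ℝ) / F.S.L i)) = F.S.nu (jj c) := by
    refine ulim_min u2 u3 ?_
    have : F.S.nu (jj c) ≤ F.S.nu (F.m q) := by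
      rw [n3]
      exact hq
    exact this
  have v1 : UB fun i => min ((kk c i : ℝ) / F.S.L i) ((F.m q i : ℝ) / F.S.L i) :=
    UB.of_tendsto (u1.tendsto.min u3.tendsto)
  have v2 : UB fun i => min ((jj c i : ℝ) / F.S.L i) ((F.m q i : ℝ) / F.S.L i) :=
    UB.of_tendsto (u2.tendsto.min u3.tendsto)
  rw [← e1, ← e2, ← ulim_add v1 v2]
  refine ulim_congr ?_
  filter_upwards [R.Wok c hc, F.S.L_pos] with i hi hL
  have hL' : (0 : ℝ) < F.S.L i := by exact_mod_cast hL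
  have h1 : (F.S.P i).ex (BX.sz (fat (F.m q) (W c)) i) =
      (F.S.P i).ex fun _ => ((min (kk c i) (F.m q i) : ℕ) : ℝ) + ((min (jj c i) (F.m q i) : ℕ) : ℝ) := by
    refine (F.S.P i).ex_congr fun ω hω => ?_
    obtain ⟨-, -, h3, h4, -, -⟩ := hi ω hω
    show ((min ((W c i).k ω) (F.m q i) : ℕ) : ℝ) + ((min ((W c i).j ω) (F.m q i) : ℕ) : ℝ) = _
    rw [h3, h4]
  rw [h1, (F.S.P i).ex_const, add_div, Nat.cast_min, Nat.cast_min, min_div_div_right hL'.le,
    min_div_div_right hL'.le]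

/-- `D c j ≤ nE j - nE c` -/
theorem D_le_nE (hK : 1 ≤ K) (R : RegA F J θ H e W kk jj) {c j : ℕ} (hcj : c ≤ j) (hj : j ≤ K) :
    F.D c j ≤ nE K J θ H j - nE K J θ H c := by
  have h := cts hK R
  have h1 := h.En_sub hcj hj
  have h2 := h.Cn_ge hcj hj
  have h3 : Cts.Dn F.S K F.N F.T c j = F.D c j := rfl
  have h4 : nE K J θ H j - nE K J θ H c = Cts.En K H J θ j - Cts.En K H J θ c := rfl
  rw [h4, h1, h3]
  linarith

/-- `D c j ≤ D i j + 2 (i - c) / K` -/
theorem D_shift (hK : 1 ≤ K) (R : RegA F J θ H e W kk jj) {c i j : ℕ} (hci : c ≤ i) (hij : i ≤ j)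
    (hj : j ≤ K) : F.D c j ≤ F.D i j + 2 * ((i : ℝ) - c) / K := by
  have h := cts hK R
  have t1 := h.tre.tT (c := c) (by omega)
  have t2 := h.tre.tT (c := i) (by omega)
  have h1 : F.S.hc (F.T i) (F.N j) ≤ F.S.hc (F.T c) (F.N j) :=
    hc_mono_left t1 t2 (ftr (h.tre.TT' hci (by omega)) (ffst _ _))
  unfold Flg.D
  have h2 : 2 * ((j : ℝ) - c) / K = 2 * ((j : ℝ) - i) / K + 2 * ((i : ℝ) - c) / K := by ring
  rw [h2]
  linarith

/-- a node given its piece -/
theorem cnt_N_sg (hK : 1 ≤ K) (F : Flg K) (c : ℕ) : Cnt F.S (F.N c) (F.sg c) (2 / K) := by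
  classical
  intro ε hε
  refine Eventually.of_forall fun i ω hω => ?_
  refine ⟨(Fintype.piFinset fun k => Finset.Ico (2 ^ F.n i * (F.sg c i ω).o k)
    (2 ^ F.n i * ((F.sg c i ω).o k + 1))).image fun o => (⟨(F.sg c i ω).τ, o, (F.sg c i ω).T⟩ : Nd), ?_, ?_⟩
  · have h0 : (((Fintype.piFinset fun k => Finset.Ico (2 ^ F.n i * (F.sg c i ω).o k)
        (2 ^ F.n i * ((F.sg c i ω).o k + 1))).image fun o =>
          (⟨(F.sg c i ω).τ, o, (F.sg c i ω).T⟩ : Nd)).card : ℝ) ≤ ((2 ^ (2 * F.n i) : ℕ) : ℝ) := by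
      refine Nat.cast_le.2 (Finset.card_image_le.trans ?_)
      rw [Fintype.card_piFinset]
      have h1 : ∀ k : Fin 2, (Finset.Ico (2 ^ F.n i * (F.sg c i ω).o k)
          (2 ^ F.n i * ((F.sg c i ω).o k + 1))).card = 2 ^ F.n i := by
        intro k
        rw [Int.card_Ico]
        have h2 : 2 ^ F.n i * ((F.sg c i ω).o k + 1) - 2 ^ F.n i * (F.sg c i ω).o k =
            ((2 ^ F.n i : ℕ) : ℤ) := by
          push_cast
          ring
        rw [h2, Int.toNat_natCast]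
      rw [Finset.prod_congr rfl fun k _ => h1 k]
      simp only [Finset.prod_const, Finset.card_univ, Fintype.card_fin]
      rw [← pow_mul, mul_comm]
    refine h0.trans ?_
    have hK' : (0 : ℝ) < K := by exact_mod_cast hK
    have h2 : ((2 ^ (2 * F.n i) : ℕ) : ℝ) = (2 : ℝ) ^ ((2 / K) * (F.S.L i : ℝ)) := by
      rw [F.L_eq i]
      push_cast
      have h3 : (2 : ℝ) / K * (K * F.n i) = ((2 * F.n i : ℕ) : ℝ) := by
        push_cast
        field_simp
      rw [h3, Real.rpow_natCast]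
    rw [h2]
    refine Real.rpow_le_rpow_of_exponent_le (by norm_num) ?_
    have h4 : (0 : ℝ) ≤ F.S.L i := Nat.cast_nonneg _
    nlinarith
  · intro ω' hω' e'
    have e1 : (F.N c i ω').sg (F.n i) = F.sg c i ω := e'
    rw [Finset.mem_image]
    refine ⟨(F.N c i ω').o, ?_, ?_⟩
    · rw [Fintype.mem_piFinset]
      intro k
      rw [Finset.mem_Ico, ← e1]
      have h2 : (0 : ℤ) < 2 ^ F.n i := by positivity
      constructor
      · exact Int.mul_ediv_self_le h2.ne'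
      · exact Int.lt_mul_ediv_self_add h2 |>.trans_eq (by
          show _ = 2 ^ F.n i * ((F.N c i ω').o k / 2 ^ F.n i + 1)
          ring)
    · rw [← e1]
      rfl

/-- one step back: `H c ≤ H (c + 1) + 4 / K` -/
theorem H_back_succ (hK : 1 ≤ K) (R : RegA F J θ H e W kk jj) {c : ℕ} (hc : c < K) :
    H c ≤ H (c + 1) + 4 / K := by
  have h := cts hK R
  have t1 := h.tre.tN c hc.le
  have t2 := h.tre.tN (c + 1) hc
  have h1 := info_le t1 t2
  have h2 := h.hc_NN_cut (Nat.le_succ c) hc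
  have h3 : F.S.hc (F.T c) (F.N (c + 1)) ≤ F.S.hc (F.T c) (F.T (c + 1)) :=
    hc_mono_right (h.tre.tT hc.le) (h.tre.TN (c + 1) hc)
  have h4 := h.hT c hc
  have h5 : F.S.hc (F.N c) (Sys.pr (F.T c) (F.N (c + 1))) ≤ F.S.hc (F.N c) (F.sg c) :=
    hc_mono_right t1 (h.tre.gT c hc)
  have h6 := cnt_hc_le (cnt_N_sg hK F c)
  have h7 : F.S.hc (F.N c) (one (S := F.S)) = H c := h.hN c hc.le
  have h8 : F.S.hc (F.N (c + 1)) (one (S := F.S)) = H (c + 1) := h.hN (c + 1) hc
  have h9 : (4 : ℝ) / K = 2 / K + 2 / K := by ring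
  rw [h7, h8] at h1
  rw [h9]
  have h2' : F.S.hc (F.N c) (F.N (c + 1)) =
    F.S.hc (F.T c) (F.N (c + 1)) + F.S.hc (F.N c) (Sys.pr (F.T c) (F.N (c + 1))) := h2
  linarith

/-- `H c ≤ H i + 4 (i - c) / K` -/
theorem H_back (hK : 1 ≤ K) (R : RegA F J θ H e W kk jj) {c i : ℕ} (hci : c ≤ i) (hi : i ≤ K) :
    H c ≤ H i + 4 * ((i : ℝ) - c) / K := by
  induction i, hci using Nat.le_induction with
  | base => simp
  | succ i hci ih =>
    have g1 := ih (by omega)
    have g2 := H_back_succ hK R (c := i) (by omega)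
    have g3 : 4 * (((i + 1 : ℕ) : ℝ) - c) / K = 4 * ((i : ℝ) - c) / K + 4 / K := by
      push_cast
      ring
    rw [g3]
    linarith

/-- **(A)** at its own level -/
theorem diagA (h4 : E4) (hK : 1 ≤ K) (R : RegA F J θ H e W kk jj) {c j : ℕ} (hcj : c ≤ j)
    (hj2 : j ≤ 2 * c) (hjK : j ≤ K) (hα : (j : ℝ) / K ≤ nα F jj c) :
    nV K H e j ≤ nV K H e c + 3 * F.D c j + 1 / K := by
  have hKr : (0:ℝ) < (K : ℝ) := by exact_mod_cast hK
  have h := cts hK R
  have hcK := hcj.trans hjK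
  rcases Nat.eq_zero_or_pos c with h0 | h0
  · subst h0
    have hj0 : j = 0 := by omega
    subst hj0
    have a1 : 0 ≤ F.D 0 0 := h.Dn_nonneg le_rfl (Nat.zero_le _)
    have a2 : (0 : ℝ) ≤ 1 / K := by positivity
    linarith
  · have hsub := subA_W R hcK
    have hWA : BxA (W c) := bxA_of_sub (tubes_bxA (bd_m F hK c) (lnA_ln F c hcK)) hsub
    have hFs : SubA (tubes (F.m (2 * c - j)) (F.ln c)) (fat (F.m (2 * c - j)) (W c)) := fat_sub hsub
    have hFA : BxA (fat (F.m (2 * c - j)) (W c)) :=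
      bxA_of_sub (tubes_bxA (bd_m F hK (2 * c - j)) (lnA_ln F c hcK)) hFs
    have a1 := h4 F c j hK h0 hcj hj2 hjK F.S (Ext.refl F.S) (fat (F.m (2 * c - j)) (W c)) hFs
    have a2 : F.exc j ≤ e j := H655.e3 F j (e j) hK hjK (R.e0 j hjK) (R.exU j hjK)
    have a9 : ((2 * c - j : ℕ) : ℝ) = 2 * (c : ℝ) - j := by
      rw [Nat.cast_sub hj2]
      push_cast
      ring
    have hq : F.S.nu (jj c) ≤ ((2 * c - j : ℕ) : ℝ) / K := by
      unfold nα at hα
      rw [a9, sub_div]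
      linarith
    have a3 := av_fat_W hK R hcK hq
    -- tameness
    have tN := h.tre.tN c hcK
    have tsig : Tame (F.sig c j) := tN.mono (Eventually.of_forall fun k ω ω' _ _ e => by
      show F.sig c j k ω = F.sig c j k ω'
      unfold Flg.sig
      rw [e])
    have tball : Tame (F.ball c) := tN.mono (Eventually.of_forall fun k ω ω' _ _ e => by
      show F.ball c k ω = F.ball c k ω'
      unfold Flg.ball
      rw [e])
    have tF : Tame (BX.lab (fat (F.m (2 * c - j)) (W c))) := hFA.tame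
    have tW : Tame (BX.lab (W c)) := hWA.tame
    -- the entropy of the label
    have b1 := info_le tsig (tF.pr tball)
    have z1 : F.S.hc (Sys.pr (BX.lab (fat (F.m (2 * c - j)) (W c))) (F.ball c))
        (Sys.pr (BX.lab (W c)) (F.ball c)) = 0 := by
      refine hc_zero_pair tF tball (fat_lab hWA _) ?_
      exact hc_fn (fsnd _ _)
    have b2 := h_le_of_zero (tF.pr tball) (tW.pr tball) z1
    have b3 := cnt_hc_le (R.W1 c hcK)
    have a6 : F.S.hc (F.N j) (one (S := F.S)) = H j := h.hN j hjK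
    have a7 : F.S.hc ((Ext.refl F.S).pull (F.sig c j))
        (Sys.pr (BX.lab (fat (F.m (2 * c - j)) (W c))) ((Ext.refl F.S).pull (F.ball c))) =
        F.S.hc (F.sig c j) (Sys.pr (BX.lab (fat (F.m (2 * c - j)) (W c))) (F.ball c)) := rfl
    rw [a6, a7, a3] at a1
    have a10 : 6 * (c : ℝ) / K = 4 * (c : ℝ) / K + 2 * c / K := by ring
    rw [a10] at a1
    unfold nV
    linarith

/-- **E6 = (A)** from **E4** and **E5** -/
theorem e6_of (h4 : E4) {C : ℝ} (h5 : E5 C) : E6 (2 * C + 14) := by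
  intro K F J θ H e W kk jj hK R c i j hij hj2 hjK hjc hcK hα
  have hKp : (0 : ℝ) < K := by exact_mod_cast hK
  obtain ⟨l1, -, l3⟩ := h5 F J θ H e W kk jj hK R
  have hC : 0 ≤ C := by
    have := l1 0 0 (Nat.zero_le _) (Nat.zero_le _)
    simp only [sub_self, abs_zero, mul_zero, zero_div, zero_add] at this
    by_contra hcon
    push Not at hcon
    have := div_neg_of_neg_of_pos hcon hKp
    linarith
  have hiK := hij.trans hjK
  have p1 : (2 * C + 14) / K = C / K + 1 / K + (C + 13) / K := by ring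
  have p2 : 0 ≤ (C + 13) / K := div_nonneg (by linarith) hKp.le
  rcases le_total c i with hci | hic
  · have g1 := diagA h4 hK R (hci.trans hij) hjc hjK hα
    have g2 := D_shift hK R hci hij hjK
    have g3 := D_le_nE hK R hij hjK
    have g4 := H_back hK R hci hiK
    have g5 := l1 c i hcK hiK
    have hci' : (c : ℝ) ≤ i := by exact_mod_cast hci
    have e1 : |(c : ℝ) - i| = (i : ℝ) - c := by
      rw [abs_sub_comm, abs_of_nonneg (sub_nonneg.2 hci')]
    rw [e1] at g5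
    have g6 := (abs_le.1 g5).1
    rw [e1]
    have q0 : 0 ≤ ((i : ℝ) - c) / K := div_nonneg (sub_nonneg.2 hci') hKp.le
    have q1 : (2 * C + 14) * ((i : ℝ) - c) / K = (2 * C + 14) * (((i : ℝ) - c) / K) := by ring
    have q2 : C * ((i : ℝ) - c) / K = C * (((i : ℝ) - c) / K) := by ring
    have q3 : 4 * ((i : ℝ) - c) / K = 4 * (((i : ℝ) - c) / K) := by ring
    have q4 : 2 * ((i : ℝ) - c) / K = 2 * (((i : ℝ) - c) / K) := by ring
    have q5 : 4 * (c : ℝ) / K = 4 * (i : ℝ) / K - 4 * (((i : ℝ) - c) / K) := by ring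
    have q6 : 0 ≤ C * (((i : ℝ) - c) / K) := mul_nonneg hC q0
    rw [q3] at g4
    rw [q4] at g2
    rw [q2] at g6
    unfold nV at g1 ⊢
    rw [q1, p1]
    have q7 : (2 * C + 14) * (((i : ℝ) - c) / K) = C * (((i : ℝ) - c) / K) + C * (((i : ℝ) - c) / K) +
      14 * (((i : ℝ) - c) / K) := by ring
    rw [q7]
    linarith
  · have hic' : (i : ℝ) ≤ c := by exact_mod_cast hic
    have e1 : |(c : ℝ) - i| = (c : ℝ) - i := abs_of_nonneg (sub_nonneg.2 hic')
    rw [e1]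
    have q0 : 0 ≤ ((c : ℝ) - i) / K := div_nonneg (sub_nonneg.2 hic') hKp.le
    have q1 : (2 * C + 14) * ((c : ℝ) - i) / K = (2 * C + 14) * (((c : ℝ) - i) / K) := by ring
    have q6 : 0 ≤ C * (((c : ℝ) - i) / K) := mul_nonneg hC q0
    have q7 : (2 * C + 14) * (((c : ℝ) - i) / K) = C * (((c : ℝ) - i) / K) + C * (((c : ℝ) - i) / K) +
      14 * (((c : ℝ) - i) / K) := by ring
    rw [q1, q7, p1]
    rcases le_total c j with hcj | hjc'
    · have g1 := diagA h4 hK R hcj hjc hjK hα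
      have g2 := D_le_nE hK R hcj hjK
      have g3 := l3 i c hic (hcj.trans hj2) hcK
      have q2 : C * ((c : ℝ) - i) / K = C * (((c : ℝ) - i) / K) := by ring
      rw [q2] at g3
      linarith
    · have g3 := l3 i j hij hj2 hjK
      have hjc'' : (j : ℝ) ≤ c := by exact_mod_cast hjc'
      have q2 : C * ((j : ℝ) - i) / K ≤ C * (((c : ℝ) - i) / K) := by
        rw [mul_div_assoc]
        exact mul_le_mul_of_nonneg_left (div_le_div_of_nonneg_right (by linarith) hKp.le) hC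
      have q8 : (0 : ℝ) ≤ 1 / K := by positivity
      linarith

end flg

end Vale.Agent.P122.H518
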