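import Vale.Agent.P127.Stk.LibEnt

/-!
# P122 / C-BK : entropy bookkeeping of a chain of nodes (helper518), abstract part

`X` the point, `S i` the node of level `i` (`i ≤ K`), `T i` its time block, `u = n log 2` the unit of entropy per
level.

* `Chn P K X S T` : `S i` is a function of `(X, S j)` and `T i` of `S i`, `T j` of `T i` (`i ≤ j`).
* `Dl`, `Cl`, `De` : `D(i, j)`, `C(i, j)`, `Δ(i)`.
* `De_sub` : `Δ(j) - Δ(i) = D(i, j) + C(i, j) + I(X ; S j | S i)`.
* `Cl_super` : `C(i, j) ≥ C(i, k) + C(k, j)`;  `Cl_ge_sum` : sum of the one-step values.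
* `Dl_nonneg`, `Dl_sub` (`D(i, j) ≤ D(i, k) + D(k, j)` for a Markov chain), `Dl_le`, `Cl_le`.
* `E`-part : `e = C - 2 th ≥ 0`, `E` additive and nondecreasing.
-/

set_option autoImplicit false

namespace Vale.Agent.P122.H518

open Finset Vale.Agent.P127 Vale.Agent.P127.Stk

variable {Ω : Type} [Fintype Ω] {α β γ δ : Type*}

/-- functional relations of a chain of nodes -/
structure Chn (P : Law Ω) (K : ℕ) (X : Ω → α) (S : ℕ → Ω → β) (T : ℕ → Ω → γ) : Prop where
  /-- the node of a lower level is a function of the point and of a node above -/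
  SX : ∀ i j, i ≤ j → j ≤ K → Fn P (S i) (fun ω => (X ω, S j ω))
  TS : ∀ i, i ≤ K → Fn P (T i) (S i)
  TT : ∀ i j, i ≤ j → j ≤ K → Fn P (T j) (T i)

/-- `D(i, j)` : deficit of the time block -/
noncomputable def Dl (P : Law Ω) (u : ℝ) (S : ℕ → Ω → β) (T : ℕ → Ω → γ) (i j : ℕ) : ℝ :=
  2 * ((j : ℝ) - i) * u - hc P (T i) (S j)

/-- `C(i, j)` : deficit of the position and of the direction inside the piece -/
noncomputable def Cl (P : Law Ω) (u : ℝ) (S : ℕ → Ω → β) (T : ℕ → Ω → γ) (i j : ℕ) : ℝ :=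
  2 * ((j : ℝ) - i) * u - hc P (S i) (fun ω => (T i ω, S j ω))

/-- `Δ(i)` -/
noncomputable def De (P : Law Ω) (u : ℝ) (X : Ω → α) (S : ℕ → Ω → β) (i : ℕ) : ℝ :=
  4 * (i : ℝ) * u - hc P X (S i)

variable {P : Law Ω} {K : ℕ} {X : Ω → α} {S : ℕ → Ω → β} {T : ℕ → Ω → γ}

/-- `h(S i | S j) = h(T i | S j) + h(S i | T i, S j)` -/
theorem hc_node (h : Chn P K X S T) {i j : ℕ} (hij : i ≤ j) (hj : j ≤ K) :
    hc P (S i) (S j) = hc P (T i) (S j) + hc P (S i) (fun ω => (T i ω, S j ω)) := by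
  rw [← hc_pair P (T i) (S i) (S j)]
  refine hc_congr P ?_ (fun ω ω' _ _ e => ?_) (fun _ _ _ _ e => e) (fun _ _ _ _ e => e)
  · intro ω ω' _ _ e
    simp only [Prod.mk.injEq] at e
    exact e.1.2
  · simp only [Prod.mk.injEq] at e
    exact Prod.ext (h.TS i (hij.trans hj) ω ω' (by assumption) (by assumption) e.1) e.1

/-- **`Δ(j) - Δ(i) = D + C + I(X ; S j | S i)`** -/
theorem De_sub (h : Chn P K X S T) (u : ℝ) {i j : ℕ} (hij : i ≤ j) (hj : j ≤ K) :
    De P u X S j - De P u X S i = Dl P u S T i j + Cl P u S T i j + mi P X (S j) (S i) := by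
  have h1 : hc P X (S j) = hc P (S i) (S j) + hc P X (fun ω => (S i ω, S j ω)) := by
    rw [← hc_pair P (S i) X (S j)]
    refine hc_congr P (fun ω ω' _ _ e => ?_) (fun ω ω' p p' e => ?_) (fun _ _ _ _ e => e)
      (fun _ _ _ _ e => e)
    · simp only [Prod.mk.injEq] at e
      exact e.1.2
    · simp only [Prod.mk.injEq] at e
      exact Prod.ext (h.SX i j hij hj ω ω' p p' (Prod.ext e.1 e.2)) e.1
  have h2 : hc P X (fun ω => (S i ω, S j ω)) = hc P X (S i) - mi P X (S j) (S i) := by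
    unfold mi
    have : hc P X (fun ω => (S i ω, S j ω)) = hc P X (fun ω => (S j ω, S i ω)) :=
      hc_congr P (fun _ _ _ _ e => congrArg Prod.fst e) (fun _ _ _ _ e => congrArg Prod.fst e)
        (fun ω ω' _ _ e => by
          simp only [Prod.mk.injEq] at e ⊢
          exact ⟨e.2, e.1⟩)
        (fun ω ω' _ _ e => by
          simp only [Prod.mk.injEq] at e ⊢
          exact ⟨e.2, e.1⟩)
    rw [this]
    ring
  have h3 := hc_node h hij hj
  unfold De Dl Cl
  rw [h1, h2, h3]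
  ring

/-- `C` is superadditive -/
theorem Cl_super (h : Chn P K X S T) (u : ℝ) {i k j : ℕ} (hik : i ≤ k) (hkj : k ≤ j) (hj : j ≤ K) :
    Cl P u S T i k + Cl P u S T k j ≤ Cl P u S T i j := by
  have h1 := hc_le_add P (S i) (S k) (fun ω => (T i ω, S j ω))
  have h2 : hc P (S k) (fun ω => (T i ω, S j ω)) ≤ hc P (S k) (fun ω => (T k ω, S j ω)) := by
    refine hc_mono_right P _ ?_
    intro ω ω' p p' e
    simp only [Prod.mk.injEq] at e ⊢
    exact ⟨h.TT i k hik (hkj.trans hj) ω ω' p p' e.1, e.2⟩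
  have h3 : hc P (S i) (fun ω => (S k ω, T i ω, S j ω)) ≤ hc P (S i) (fun ω => (T i ω, S k ω)) := by
    refine hc_mono_right P _ ?_
    intro ω ω' p p' e
    simp only [Prod.mk.injEq] at e ⊢
    exact ⟨e.2.1, e.1⟩
  unfold Cl
  have h4 : 2 * ((j : ℝ) - i) * u = 2 * ((k : ℝ) - i) * u + 2 * ((j : ℝ) - k) * u := by ring
  rw [h4]
  linarith

/-- `C(i, j)` is at least the sum of the one-step values -/
theorem Cl_ge_sum (h : Chn P K X S T) (u : ℝ) {i j : ℕ} (hij : i ≤ j) (hj : j ≤ K) :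
    ∑ c ∈ Ico i j, Cl P u S T c (c + 1) ≤ Cl P u S T i j := by
  induction j, hij using Nat.le_induction with
  | base =>
    rw [Ico_self, sum_empty]
    have : hc P (S i) (fun ω => (T i ω, S i ω)) = 0 :=
      hc_zero P fun _ _ _ _ e => congrArg Prod.snd e
    unfold Cl
    rw [this]
    simp
  | succ j hij ih =>
    rw [sum_Ico_succ_top hij]
    have h1 := ih (by omega)
    have h2 := Cl_super h u hij (Nat.le_succ j) hj
    linarith

/-- the deficit of the time block is nonnegative if there are at most `2^(2 n (j - i))` time blocks -/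
theorem Dl_nonneg {n : ℕ} {i j : ℕ} (hij : i ≤ j)
    (hT : ∀ ω, 0 < P.w ω → ∃ F : Finset γ, F.card ≤ 2 ^ (2 * n * (j - i)) ∧
      ∀ ω', 0 < P.w ω' → S j ω' = S j ω → T i ω' ∈ F) :
    0 ≤ Dl P (n * Real.log 2) S T i j := by
  have h1 := hc_le_log P (T i) (S j) (2 ^ (2 * n * (j - i))) hT
  have h2 : Real.log ((2 ^ (2 * n * (j - i)) : ℕ) : ℝ) = 2 * ((j : ℝ) - i) * (n * Real.log 2) := by
    push_cast
    rw [Real.log_pow]
    push_cast [Nat.cast_sub hij]
    ring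
  rw [h2] at h1
  unfold Dl
  linarith

theorem Dl_le (P : Law Ω) (u : ℝ) (S : ℕ → Ω → β) (T : ℕ → Ω → γ) (i j : ℕ) :
    Dl P u S T i j ≤ 2 * ((j : ℝ) - i) * u := by
  have := hc_nonneg P (T i) (S j)
  unfold Dl
  linarith

theorem Cl_le (P : Law Ω) (u : ℝ) (S : ℕ → Ω → β) (T : ℕ → Ω → γ) (i j : ℕ) :
    Cl P u S T i j ≤ 2 * ((j : ℝ) - i) * u := by
  have := hc_nonneg P (S i) (fun ω => (T i ω, S j ω))
  unfold Cl
  linarith

/-- one step : counting bound inside the piece `sg i`, which is a function of `(T i, S (i + 1))` -/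
theorem Cl_step {sg : Ω → δ} {i N : ℕ} (u : ℝ) (hsg : Fn P sg (fun ω => (T i ω, S (i + 1) ω)))
    (hN : ∀ ω, 0 < P.w ω → ∃ F : Finset β, F.card ≤ N ∧
      ∀ ω', 0 < P.w ω' → sg ω' = sg ω → S i ω' ∈ F) :
    2 * u - Real.log N ≤ Cl P u S T i (i + 1) := by
  have h1 := hc_le_log P (S i) sg N hN
  have h2 := hc_mono_right P (S i) hsg
  unfold Cl
  push_cast
  linarith

/-- `E(i) = Δ(i) - 2 Th(i)` -/
noncomputable def Ee (P : Law Ω) (u : ℝ) (X : Ω → α) (S : ℕ → Ω → β) (th : ℕ → ℝ) (i : ℕ) : ℝ :=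
  De P u X S i - 2 * ∑ c ∈ range i, th c

/-- `e(i, j) = C(i, j) - 2 th(i, j)` -/
noncomputable def ee (P : Law Ω) (u : ℝ) (S : ℕ → Ω → β) (T : ℕ → Ω → γ) (th : ℕ → ℝ) (i j : ℕ) : ℝ :=
  Cl P u S T i j - 2 * ∑ c ∈ Ico i j, th c

/-- `E(j) - E(i) = D + e + I(X ; S j | S i)` -/
theorem Ee_sub (h : Chn P K X S T) (u : ℝ) (th : ℕ → ℝ) {i j : ℕ} (hij : i ≤ j) (hj : j ≤ K) :
    Ee P u X S th j - Ee P u X S th i =
      Dl P u S T i j + ee P u S T th i j + mi P X (S j) (S i) := by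
  have h1 := De_sub h u hij hj
  have h2 := sum_range_add_sum_Ico th hij
  unfold Ee ee
  rw [← h2]
  linarith

/-- `e ≥ - errors` -/
theorem ee_ge (h : Chn P K X S T) (u : ℝ) (th err : ℕ → ℝ) {i j : ℕ} (hij : i ≤ j) (hj : j ≤ K)
    (hth : ∀ c, i ≤ c → c < j → 2 * th c - err c ≤ Cl P u S T c (c + 1)) :
    - ∑ c ∈ Ico i j, err c ≤ ee P u S T th i j := by
  have h1 := Cl_ge_sum h u hij hj
  have h2 : ∑ c ∈ Ico i j, (2 * th c - err c) ≤ ∑ c ∈ Ico i j, Cl P u S T c (c + 1) :=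
    sum_le_sum fun c hc => by
      rw [mem_Ico] at hc
      exact hth c hc.1 hc.2
  rw [sum_sub_distrib, ← mul_sum] at h2
  unfold ee
  linarith

/-- superadditivity of `e` -/
theorem ee_super (h : Chn P K X S T) (u : ℝ) (th : ℕ → ℝ) {i k j : ℕ} (hik : i ≤ k) (hkj : k ≤ j)
    (hj : j ≤ K) : ee P u S T th i k + ee P u S T th k j ≤ ee P u S T th i j := by
  have h1 := Cl_super h u hik hkj hj
  have h2 := sum_Ico_consecutive th hik hkj
  unfold ee
  rw [← h2]
  linarith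

/-- `D` is subadditive up to the Markov defect -/
theorem Dl_sub (h : Chn P K X S T) (u : ℝ) {i k j : ℕ} (hik : i ≤ k) (hkj : k ≤ j) (hj : j ≤ K) :
    Dl P u S T i j ≤ Dl P u S T i k + Dl P u S T k j + mi P X (S k) (S i) + mi P X (S j) (S k) := by
  have h1 := De_sub h u (hik.trans hkj) hj
  have h2 := De_sub h u hik (hkj.trans hj)
  have h3 := De_sub h u hkj hj
  have h4 := Cl_super h u hik hkj hj
  have h5 := mi_nonneg P X (S j) (S i)
  linarith

/-- `E` is nondecreasing up to the errors -/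
theorem Ee_mono (h : Chn P K X S T) (u : ℝ) (th err : ℕ → ℝ) {i j : ℕ} (hij : i ≤ j) (hj : j ≤ K)
    (hD : 0 ≤ Dl P u S T i j)
    (hth : ∀ c, i ≤ c → c < j → 2 * th c - err c ≤ Cl P u S T c (c + 1)) :
    Ee P u X S th i - ∑ c ∈ Ico i j, err c ≤ Ee P u X S th j := by
  have h1 := Ee_sub h u th hij hj
  have h2 := ee_ge h u th err hij hj hth
  have h3 := mi_nonneg P X (S j) (S i)
  linarith

/-- `E(0) = 0` if the point is the node of level `0` -/
theorem Ee_zero (u : ℝ) (th : ℕ → ℝ) (hX : Fn P X (S 0)) : Ee P u X S th 0 = 0 := by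
  unfold Ee De
  rw [hc_zero P hX]
  simp

end Vale.Agent.P122.H518
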